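import Vale.Agent.P040.H906.Sel2

/-!
# Potentials with prescribed masses on an arbitrary configuration, and a strictly valid potential
-/

set_option linter.unusedVariables false
set_option linter.unusedSectionVars false

namespace Vale.Agent.P040.H587

open Vale.Agent.P040.H906

variable {W : Type*} [LinearOrder W]

/-- the rank of `z` in `S` -/
def rho (S : Finset W) (z : W) : ℕ := (S.filter (· < z)).card

/-- the sign of `z` -/
def eps (S : Finset W) (z : W) : ℝ := (-1) ^ rho S z

/-- `-M` for a forward pair, `M` for a backward pair -/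
noncomputable def mm (M : ℝ) (x y : W) : ℝ := if y < x then M else -M

theorem mm_symm {M : ℝ} {x y : W} (h : x ≠ y) : mm M x y = - mm M y x := by
  unfold mm
  rcases lt_or_gt_of_ne h with h1 | h1
  · rw [if_neg (not_lt.2 h1.le), if_pos h1]
  · rw [if_pos h1, if_neg (not_lt.2 h1.le), neg_neg]

/-- there are evenly many points between two partners -/
theorem even_between {c : Cfg W} (h : c.Good) (b : Bool) {x : W} (hx : x ∈ c.S)
    (hlt : x < c.f b x) : Even (c.S.filter (fun z => x < z ∧ z < c.f b x)).card := by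
  have key : ∀ z ∈ c.S, x < z → z < c.f b x → x < c.f b z ∧ c.f b z < c.f b x := by
    intro z hz h1 h2
    have := h.nc b x hx z hz (Or.inl ⟨h1, h2⟩)
    rcases this with h3 | h3 | h3
    · exact h3
    · exact absurd (h3.2.trans hlt) (lt_irrefl _)
    · exact absurd (h3.1.trans hlt) (lt_irrefl _)
  have h0 : ∑ z ∈ c.S.filter (fun z => x < z ∧ z < c.f b x), (1 : ZMod 2) = 0 := by
    refine Finset.sum_involution (fun z _ => c.f b z) ?_ ?_ ?_ ?_
    · intro z _; decide
    · intro z hz _
      exact h.ne b z (Finset.mem_filter.1 hz).1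
    · intro z hz
      rw [Finset.mem_filter] at hz ⊢
      exact ⟨h.mem b z hz.1, key z hz.1 hz.2.1 hz.2.2⟩
    · intro z hz
      exact h.inv b z (Finset.mem_filter.1 hz).1
  rw [Finset.sum_const, nsmul_eq_mul, mul_one] at h0
  exact (ZMod.natCast_eq_zero_iff_even).1 h0

theorem rho_eq {S : Finset W} {x y : W} (hx : x ∈ S) (hxy : x < y) :
    rho S y = rho S x + 1 + (S.filter (fun z => x < z ∧ z < y)).card := by
  unfold rho
  have h1 : S.filter (· < y) =
      insert x ((S.filter (· < x)) ∪ (S.filter (fun z => x < z ∧ z < y))) := by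
    ext z
    simp only [Finset.mem_filter, Finset.mem_insert, Finset.mem_union]
    constructor
    · rintro ⟨h1, h2⟩
      rcases lt_trichotomy z x with h3 | h3 | h3
      · exact Or.inr (Or.inl ⟨h1, h3⟩)
      · exact Or.inl h3
      · exact Or.inr (Or.inr ⟨h1, h3, h2⟩)
    · rintro (rfl | ⟨h1, h2⟩ | ⟨h1, h2, h3⟩)
      · exact ⟨hx, hxy⟩
      · exact ⟨h1, h2.trans hxy⟩
      · exact ⟨h1, h3⟩
  rw [h1, Finset.card_insert_of_notMem, Finset.card_union_of_disjoint]
  · ring
  · rw [Finset.disjoint_left]
    intro z hz hz'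
    simp only [Finset.mem_filter] at hz hz'
    exact absurd (hz.2.trans hz'.2.1) (lt_irrefl _)
  · simp

/-- partners have opposite signs -/
theorem eps_f {c : Cfg W} (h : c.Good) (b : Bool) {x : W} (hx : x ∈ c.S) :
    eps c.S (c.f b x) = - eps c.S x := by
  have key : ∀ x ∈ c.S, x < c.f b x → eps c.S (c.f b x) = - eps c.S x := by
    intro x hx hlt
    obtain ⟨k, hk⟩ := even_between h b hx hlt
    unfold eps
    rw [rho_eq hx hlt, hk, pow_add, pow_add, ← two_mul k, pow_mul]
    norm_num
  rcases lt_trichotomy x (c.f b x) with h1 | h1 | h1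
  · exact key x hx h1
  · exact absurd h1.symm (h.ne b x hx)
  · have := key (c.f b x) (h.mem b x hx) (by rw [h.inv b x hx]; exact h1)
    rw [h.inv b x hx] at this
    rw [this, neg_neg]

theorem rho_adj {S : Finset W} {p q : W} (hp : p ∈ S) (hpq : p < q)
    (had : ∀ z ∈ S, p < z → z < q → False) : rho S q = rho S p + 1 := by
  rw [rho_eq hp hpq]
  have : S.filter (fun z => p < z ∧ z < q) = ∅ := by
    rw [Finset.filter_eq_empty_iff]
    intro z hz h1
    exact had z hz h1.1 h1.2
  rw [this, Finset.card_empty]

theorem rho_del {S : Finset W} {p q z : W} (hp : p ∈ S) (hq : q ∈ S) (hpq : p < q)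
    (had : ∀ z ∈ S, p < z → z < q → False) (hz : z ∈ S) (hzp : z ≠ p) (hzq : z ≠ q) :
    eps ((S.erase p).erase q) z = eps S z := by
  unfold eps rho
  have hf : ((S.erase p).erase q).filter (· < z) = ((S.filter (· < z)).erase p).erase q := by
    ext w
    simp only [Finset.mem_filter, Finset.mem_erase]
    tauto
  rw [hf]
  rcases lt_or_gt_of_ne hzp with h1 | h1
  · have e1 : p ∉ S.filter (· < z) := by
      simp only [Finset.mem_filter, not_and, not_lt]
      exact fun _ => h1.le
    have e2 : q ∉ S.filter (· < z) := by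
      simp only [Finset.mem_filter, not_and, not_lt]
      exact fun _ => (h1.trans hpq).le
    rw [Finset.erase_eq_of_notMem e1, Finset.erase_eq_of_notMem e2]
  · have h2 : q < z := by
      rcases lt_or_gt_of_ne hzq with h2 | h2
      · exact absurd (had z hz h1 h2) id
      · exact h2
    have e1 : p ∈ S.filter (· < z) := by simp [hp, h1]
    have e2 : q ∈ (S.filter (· < z)).erase p := by
      simp [hq, h2, hpq.ne']
    have c1 := Finset.card_erase_of_mem e1
    have c2 := Finset.card_erase_of_mem e2
    have c3 : 0 < ((S.filter (· < z)).erase p).card := Finset.card_pos.2 ⟨_, e2⟩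
    have c4 : 0 < (S.filter (· < z)).card := Finset.card_pos.2 ⟨_, e1⟩
    have c5 : (S.filter (· < z)).card = (((S.filter (· < z)).erase p).erase q).card + 2 := by
      omega
    rw [c5, pow_add]
    norm_num

/-- a chord of the upper page whose end points are neighbours on the line -/
theorem exists_line_leaf {c : Cfg W} (h : c.Good) (b : Bool) :
    ∃ p ∈ c.S, p < c.f b p ∧ ∀ z ∈ c.S, p < z → z < c.f b p → False := by
  classical
  have hne : (c.S.filter (fun x => x < c.f b x)).Nonempty := by
    obtain ⟨x, hx⟩ := h.nonem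
    rcases lt_trichotomy x (c.f b x) with h1 | h1 | h1
    · exact ⟨x, Finset.mem_filter.2 ⟨hx, h1⟩⟩
    · exact absurd h1.symm (h.ne b x hx)
    · exact ⟨c.f b x, Finset.mem_filter.2 ⟨h.mem b x hx, by rw [h.inv b x hx]; exact h1⟩⟩
  obtain ⟨p, hp, hmin⟩ := Finset.exists_min_image _
    (fun x => (c.S.filter (fun z => x < z ∧ z < c.f b x)).card) hne
  rw [Finset.mem_filter] at hp
  refine ⟨p, hp.1, hp.2, ?_⟩
  intro z hz h1 h2
  have key : ∀ y ∈ c.S, p < y → y < c.f b p → y < c.f b y → c.f b y < c.f b p → False := by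
    intro y hy h1 h2 h3 h4
    have h5 := hmin y (Finset.mem_filter.2 ⟨hy, h3⟩)
    have h6 : c.S.filter (fun z => y < z ∧ z < c.f b y) ⊂
        c.S.filter (fun z => p < z ∧ z < c.f b p) := by
      rw [Finset.ssubset_iff_subset_ne]
      constructor
      · intro w hw
        rw [Finset.mem_filter] at hw ⊢
        exact ⟨hw.1, h1.trans hw.2.1, hw.2.2.trans h4⟩
      · intro he
        have : y ∈ c.S.filter (fun z => p < z ∧ z < c.f b p) :=
          Finset.mem_filter.2 ⟨hy, h1, h2⟩
        rw [← he, Finset.mem_filter] at this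
        exact lt_irrefl _ this.2.1
    exact absurd (Finset.card_lt_card h6) (not_lt.2 h5)
  have hc := h.nc b p hp.1 z hz (Or.inl ⟨h1, h2⟩)
  have hc' : p < c.f b z ∧ c.f b z < c.f b p := by
    rcases hc with h3 | h3 | h3
    · exact h3
    · exact absurd (h3.2.trans hp.2) (lt_irrefl _)
    · exact absurd (h3.1.trans hp.2) (lt_irrefl _)
  rcases lt_trichotomy z (c.f b z) with h3 | h3 | h3
  · exact key z hz h1 h2 h3 hc'.2
  · exact h.ne b z hz h3.symm
  · exact key _ (h.mem b z hz) hc'.1 hc'.2 (by rw [h.inv b z hz]; exact h3)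
      (by rw [h.inv b z hz]; exact h2)

/-- the four cases of the signs at a leaf -/
theorem mm_leaf {M : ℝ} {p q P Q : W} (hpq : p < q) (hPQ : P ≠ Q) (hPp : P ≠ p) (hPq : P ≠ q)
    (hQp : Q ≠ p) (hQq : Q ≠ q) (hP : p < P → P < q → False) (hQ : p < Q → Q < q → False)
    (hn : Cyc p q P → Cyc p Q P) (hn' : Cyc P q p → Cyc P Q p) :
    - mm M P Q + mm M q Q - mm M p P + M = 0 := by
  have k : (P < p ∨ q < P) ∧ (Q < p ∨ q < Q) := by
    constructor
    · rcases lt_or_gt_of_ne hPp with h1 | h1
      · exact Or.inl h1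
      · rcases lt_or_gt_of_ne hPq with h2 | h2
        · exact absurd h2 (hP h1)
        · exact Or.inr h2
    · rcases lt_or_gt_of_ne hQp with h1 | h1
      · exact Or.inl h1
      · rcases lt_or_gt_of_ne hQq with h2 | h2
        · exact absurd h2 (hQ h1)
        · exact Or.inr h2
  unfold mm
  unfold Cyc at hn hn'
  rcases k with ⟨h1 | h1, h2 | h2⟩
  · -- `P, Q < p`
    have h3 : Q < P := by
      rcases lt_or_gt_of_ne hPQ with h3 | h3
      · rcases hn (Or.inr (Or.inr ⟨h1, hpq⟩)) with h4 | h4 | h4
        · exact h4.2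
        · exact h4.1
        · exact absurd (h4.2.trans h2) (lt_irrefl _)
      · exact h3
    rw [if_pos h3, if_pos (h2.trans hpq), if_pos h1]; ring
  · -- `P < p < q < Q`
    have h3 : P < Q := h1.trans (hpq.trans h2)
    rw [if_neg (not_lt.2 h3.le), if_neg (not_lt.2 h2.le), if_pos h1]; ring
  · -- `Q < p < q < P`
    exfalso
    rcases hn (Or.inl ⟨hpq, h1⟩) with h4 | h4 | h4
    · exact lt_irrefl _ (h4.1.trans h2)
    · exact lt_irrefl _ (h4.2.trans (hpq.trans h1))
    · exact lt_irrefl _ (h4.1.trans (hpq.trans h1))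
  · -- `p < q < P, Q`
    have h3 : Q < P := by
      rcases hn (Or.inl ⟨hpq, h1⟩) with h4 | h4 | h4
      · exact h4.2
      · exact h4.1
      · exact absurd (h4.1.trans (hpq.trans h1)) (lt_irrefl _)
    rw [if_pos h3, if_neg (not_lt.2 h2.le), if_neg (not_lt.2 (hpq.trans h1).le)]; ring

theorem mm_add {M : ℝ} {x y : W} (h : x ≠ y) : mm M x y + mm M y x = 0 := by
  rw [mm_symm h]; ring

/-- the equation at one end point of a chord gives the equation at the other end point -/
theorem eq_symm {c : Cfg W} (h : c.Good) {C : Bool → W → ℝ} {M : ℝ} {E : W → ℝ} {b : Bool} {x : W}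
    (hx : x ∈ c.S) (he : c.dl E b x = C b (c.f b x) - C b x + mm M x (c.f b x)) :
    c.dl E b (c.f b x) = C b (c.f b (c.f b x)) - C b (c.f b x) + mm M (c.f b x)
      (c.f b (c.f b x)) := by
  have h1 := mm_add (M := M) (h.ne b x hx)
  rw [h.inv b x hx]
  unfold Cfg.dl at he ⊢
  rw [h.inv b x hx]
  linarith

open Classical in
/-- **Potentials with prescribed masses** (Gauss–Bonnet for arbitrary meanders): `C b` is the
cumulative mass on page `b`, `2 M` the mass of a page; the curve bisects the total mass. -/
theorem exists_pot : ∀ (n : ℕ) (c : Cfg W), c.S.card = n → c.Good → ∀ (C : Bool → W → ℝ) (M : ℝ),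
    (∑ z ∈ c.S, eps c.S z * (C true z + C false z) = -(2 * M)) →
    ∃ E : W → ℝ, ∀ b, ∀ x ∈ c.S,
      c.dl E b x = C b (c.f b x) - C b x + mm M x (c.f b x) := by
  intro n
  induction n using Nat.strong_induction_on with
  | _ n ih =>
  intro c hn hg C M hbal
  obtain ⟨p, hp, hpq, had⟩ := exists_line_leaf hg true
  set q := c.f true p with hq
  have hqS : q ∈ c.S := hg.mem true p hp
  have hqp : c.f true q = p := hg.inv true p hp
  have hepsq : eps c.S q = - eps c.S p := eps_f hg true hp
  have hepsp : eps c.S p ^ 2 = 1 := by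
    unfold eps; rw [← pow_mul, mul_comm, pow_mul]; norm_num
  rcases Nat.lt_or_ge 2 c.S.card with h2 | h2
  · -- the step
    have hl : c.Leaf true p := by
      refine ⟨hp, fun z hz hc => ?_⟩
      rcases hc with h3 | h3 | h3
      · exact had z hz h3.1 h3.2
      · exact lt_irrefl _ (h3.2.trans hpq)
      · exact lt_irrefl _ (h3.1.trans hpq)
    have hgd := Cfg.good_del hg h2 hl
    have hcard := Cfg.card_del hg hp (b := true)
    set P := c.f false p with hP
    set Q := c.f false q with hQ
    have hPS : P ∈ c.S := hg.mem false p hp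
    have hQS : Q ∈ c.S := hg.mem false q hqS
    have hPp : P ≠ p := hg.ne false p hp
    have hQq : Q ≠ q := hg.ne false q hqS
    have hPq : P ≠ q := hg.ne_other h2 true hp
    have hPinv : c.f false P = p := hg.inv false p hp
    have hQinv : c.f false Q = q := hg.inv false q hqS
    have hQp : Q ≠ p := by
      intro he; apply hPq; rw [hP, ← he, hQinv]
    have hPQ : P ≠ Q := by
      intro he
      have : p = q := by rw [← hPinv, ← hQinv, he]
      exact hpq.ne this
    have hPd : P ∈ (c.del true p).S := Cfg.mem_del.2 ⟨hPq, hPp, hPS⟩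
    have hQd : Q ∈ (c.del true p).S := Cfg.mem_del.2 ⟨hQq, hQp, hQS⟩
    have hsame : ∀ y, (c.del true p).f true y = c.f true y := fun y => Cfg.del_same c true p y
    have hPf : (c.del true p).f false P = Q := by
      have := Cfg.del_other c true p P
      simp only [Bool.not_true] at this
      rw [this, if_pos hPinv]
    have hQf : (c.del true p).f false Q = P := by
      have := Cfg.del_other c true p Q
      simp only [Bool.not_true] at this
      rw [this, hQinv, if_neg hpq.ne', if_pos hq]
    have hother : ∀ y, y ∈ c.S → y ≠ P → y ≠ Q → (c.del true p).f false y = c.f false y := by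
      intro y hy h3 h4
      have := Cfg.del_other c true p y
      simp only [Bool.not_true] at this
      rw [this, if_neg, if_neg]
      · intro he
        apply h4
        rw [hQ, hq, ← he, hg.inv false y hy]
      · intro he
        apply h3
        rw [hP, ← he, hg.inv false y hy]
    set δ : ℝ := C false p - C false q + (C true p - C true q) with hδ
    let C' : Bool → W → ℝ := fun b z => if b = false ∧ z = Q then C false Q + δ else C b z
    have hC't : ∀ z, C' true z = C true z := fun z => if_neg (by simp)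
    have hC'Q : C' false Q = C false Q + δ := if_pos ⟨rfl, rfl⟩
    have hC'f : ∀ z, z ≠ Q → C' false z = C false z := fun z hz => if_neg (by simp [hz])
    have hepsQ : eps c.S Q = eps c.S p := by
      have := eps_f hg false hqS
      rw [this, hepsq, neg_neg]
    have hSd : (c.del true p).S = (c.S.erase p).erase q := rfl
    have hbal' : ∑ z ∈ (c.del true p).S, eps (c.del true p).S z * (C' true z + C' false z) =
        -(2 * M) := by
      have e1 : ∀ z ∈ (c.del true p).S, eps (c.del true p).S z * (C' true z + C' false z) =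
          eps c.S z * (C true z + C false z) + (if z = Q then eps c.S p * δ else 0) := by
        intro z hz
        have hz' := Cfg.mem_del.1 hz
        rw [hSd, rho_del hp hqS hpq had hz'.2.2 hz'.2.1 hz'.1, hC't]
        by_cases h3 : z = Q
        · rw [h3, hC'Q, if_pos rfl, hepsQ]; ring
        · rw [hC'f z h3, if_neg h3]; ring
      rw [Finset.sum_congr rfl e1, Finset.sum_add_distrib, Finset.sum_ite_eq', if_pos hQd]
      have e2 : ∑ z ∈ c.S, eps c.S z * (C true z + C false z) =
          ∑ z ∈ (c.del true p).S, eps c.S z * (C true z + C false z) +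
          eps c.S q * (C true q + C false q) + eps c.S p * (C true p + C false p) := by
        rw [hSd, Finset.sum_erase_add, Finset.sum_erase_add _ _ hp]
        exact Finset.mem_erase.2 ⟨hpq.ne', hqS⟩
      rw [hbal, hepsq] at e2
      rw [hδ]
      linear_combination (-1 : ℝ) * e2
    obtain ⟨E', hE'⟩ := ih (c.del true p).S.card (by omega) (c.del true p) rfl hgd C' M hbal'
    let E : W → ℝ := fun z => if z = p then E' P + C false P - C false p + mm M p P
      else if z = q then E' Q + C false Q - C false q + mm M q Q else E' z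
    have hEp : E p = E' P + C false P - C false p + mm M p P := if_pos rfl
    have hEq : E q = E' Q + C false Q - C false q + mm M q Q :=
      (if_neg hpq.ne').trans (if_pos rfl)
    have hEo : ∀ z, z ≠ p → z ≠ q → E z = E' z := fun z h3 h4 =>
      (if_neg h3).trans (if_neg h4)
    have hleaf := mm_leaf (M := M) (P := P) (Q := Q) hpq hPQ hPp hPq hQp hQq
      (had P hPS) (had Q hQS) (fun hc => by
        have := hg.nc false p hp q hqS hc
        exact this) (fun hc => by
        have := hg.nc false P hPS q hqS (by rw [hPinv]; exact hc)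
        rw [hPinv] at this
        exact this)
    have hPQe := hE' false P hPd
    unfold Cfg.dl at hPQe
    rw [hPf, hC'Q, hC'f P hPQ] at hPQe
    have sgt : sg true = 1 := by simp [sg]
    have sgf : sg false = -1 := by simp [sg]
    rw [sgf] at hPQe
    have tp : c.dl E true p = C true (c.f true p) - C true p + mm M p (c.f true p) := by
      unfold Cfg.dl
      rw [← hq, sgt, hEp, hEq]
      have hmpq : mm M p q = -M := if_neg (not_lt.2 hpq.le)
      rw [hmpq]
      linarith
    have fp : c.dl E false p = C false (c.f false p) - C false p + mm M p (c.f false p) := by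
      unfold Cfg.dl
      rw [← hP, sgf, hEp, hEo P hPp hPq]
      ring
    have fq : c.dl E false q = C false (c.f false q) - C false q + mm M q (c.f false q) := by
      unfold Cfg.dl
      rw [← hQ, sgf, hEq, hEo Q hQp hQq]
      ring
    refine ⟨E, ?_⟩
    intro b x hx
    cases b with
    | true =>
      by_cases h3 : x = p
      · rw [h3]; exact tp
      by_cases h4 : x = q
      · rw [h4]
        exact eq_symm hg hp tp
      have h5 : c.f true x ≠ p := by
        intro he; apply h4; rw [hq, ← he, hg.inv true x hx]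
      have h6 : c.f true x ≠ q := by
        intro he
        exact h3 (hg.inj hx hp he)
      have hxd : x ∈ (c.del true p).S := Cfg.mem_del.2 ⟨h4, h3, hx⟩
      have := hE' true x hxd
      unfold Cfg.dl at this ⊢
      rw [hsame, hC't, hC't] at this
      rw [hEo x h3 h4, hEo _ h5 h6]
      exact this
    | false =>
      by_cases h3 : x = p
      · rw [h3]; exact fp
      by_cases h4 : x = q
      · rw [h4]; exact fq
      by_cases h5 : x = P
      · rw [h5]; exact eq_symm hg hp fp
      by_cases h6 : x = Q
      · rw [h6]; exact eq_symm hg hqS fq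
      have h7 : c.f false x ≠ p := by
        intro he; apply h5; rw [hP, ← he, hg.inv false x hx]
      have h8 : c.f false x ≠ q := by
        intro he; apply h6; rw [hQ, ← he, hg.inv false x hx]
      have h9 : c.f false x ≠ Q := by
        intro he
        apply h4
        exact hg.inj hx hqS he
      have hxd : x ∈ (c.del true p).S := Cfg.mem_del.2 ⟨h4, h3, hx⟩
      have := hE' false x hxd
      unfold Cfg.dl at this ⊢
      rw [hother x hx h5 h6, hC'f x h6, hC'f _ h9] at this
      rw [hEo x h3 h4, hEo _ h7 h8]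
      exact this
  · -- two points
    have h3 := two_le hg
    have hS : c.S = {p, q} := by
      symm
      apply Finset.eq_of_subset_of_card_le
      · intro y hy; simp at hy; rcases hy with rfl | rfl <;> assumption
      · rw [Finset.card_pair hpq.ne]; omega
    have hbf : c.f false p = q := by
      have h4 := hg.mem false p hp
      have h5 := hg.ne false p hp
      rw [hS] at h4
      simp at h4
      rcases h4 with h4 | h4
      · exact absurd h4 h5
      · exact h4
    have hrq : rho c.S q = rho c.S p + 1 := rho_adj hp hpq had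
    have hrp : rho c.S p = 0 := by
      unfold rho
      rw [Finset.card_eq_zero, Finset.filter_eq_empty_iff]
      intro z hz
      rw [hS] at hz
      simp at hz
      rcases hz with rfl | rfl
      · exact lt_irrefl _
      · exact not_lt.2 hpq.le
    have e1 : (C true p + C false p) - (C true q + C false q) = -(2 * M) := by
      rw [← hbal]
      conv_rhs => rw [hS]
      rw [Finset.sum_pair hpq.ne]
      have e3 : eps {p, q} p = 1 := by
        rw [← hS]; unfold eps; rw [hrp]; norm_num
      have e4 : eps {p, q} q = -1 := by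
        rw [← hS]; unfold eps; rw [hrq, hrp]; norm_num
      rw [e3, e4]; ring
    let E : W → ℝ := fun z => if z = q then C true q - C true p - M else 0
    have hEq : E q = C true q - C true p - M := if_pos rfl
    have hEp : E p = 0 := if_neg hpq.ne
    have hmpq : mm M p q = -M := if_neg (not_lt.2 hpq.le)
    have sgt : sg true = 1 := by simp [sg]
    have sgf : sg false = -1 := by simp [sg]
    have tp : c.dl E true p = C true (c.f true p) - C true p + mm M p (c.f true p) := by
      unfold Cfg.dl
      rw [← hq, sgt, hEp, hEq, hmpq]; ring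
    have fp : c.dl E false p = C false (c.f false p) - C false p + mm M p (c.f false p) := by
      unfold Cfg.dl
      rw [hbf, sgf, hEp, hEq, hmpq]; linarith
    refine ⟨E, ?_⟩
    intro b x hx
    rw [hS] at hx
    simp at hx
    rcases hx with rfl | rfl
    · cases b
      · exact fp
      · exact tp
    · cases b
      · have := eq_symm hg hp fp
        rw [hbf] at this
        exact this
      · exact eq_symm hg hp tp

/-- strictly valid: all regions have positive mass -/
def Strict (c : Cfg W) (E : W → ℝ) (M : ℝ) : Prop :=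
  ∀ b, ∀ T ⊆ c.S, T.Nonempty → PD (c.f b) T → ∑ x ∈ T, (M + c.dl E b x) < 2 * M

theorem pd_singleton (f : W → W) (x : W) : PD f {x} := by
  intro y hy z hz hne
  simp at hy hz
  exact absurd (hy.trans hz.symm) hne

theorem Strict.abs_lt {c : Cfg W} (hg : c.Good) {E : W → ℝ} {M : ℝ} (h : Strict c E M) {b : Bool}
    {x : W} (hx : x ∈ c.S) : |c.dl E b x| < M := by
  have h1 := h b {x} (by simpa using hx) (Finset.singleton_nonempty _) (pd_singleton _ _)
  have h2 := h b {c.f b x} (by simpa using hg.mem b x hx) (Finset.singleton_nonempty _)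
    (pd_singleton _ _)
  rw [Finset.sum_singleton] at h1 h2
  have h3 : c.dl E b (c.f b x) = - c.dl E b x := by
    unfold Cfg.dl; rw [hg.inv b x hx]; ring
  rw [h3] at h2
  rw [_root_.abs_lt]
  constructor <;> linarith

theorem Strict.pos {c : Cfg W} (hg : c.Good) {E : W → ℝ} {M : ℝ} (h : Strict c E M) : 0 < M := by
  obtain ⟨x, hx⟩ := hg.nonem
  exact lt_of_le_of_lt (abs_nonneg _) (h.abs_lt hg hx (b := true))

theorem Strict.valid {c : Cfg W} (hg : c.Good) {E : W → ℝ} {M : ℝ} (h : Strict c E M) :
    c.Valid E M := by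
  intro b T hT hPD
  rcases T.eq_empty_or_nonempty with rfl | hne
  · simpa using (h.pos hg).le
  · exact (h b T hT hne hPD).le

theorem in_or {f : W → W} {x y z : W} (hxy : x ≠ y) (h1 : In f x z) (h2 : In f y z) :
    In f x y ∨ In f y x := by
  unfold In Cyc at *
  rcases lt_trichotomy x y with a1 | a1 | a1
  · rcases lt_trichotomy x z with a2 | a2 | a2 <;> rcases lt_trichotomy y z with a3 | a3 | a3 <;>
      grind
  · exact absurd a1 hxy
  · rcases lt_trichotomy x z with a2 | a2 | a2 <;> rcases lt_trichotomy y z with a3 | a3 | a3 <;>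
      grind

open Classical in
/-- the number of points of a closed arc -/
theorem card_in {c : Cfg W} (hg : c.Good) (b : Bool) {x : W} (hx : x ∈ c.S) :
    ((c.S.filter (fun z => In (c.f b) x z)).card : ℝ) =
      (rho c.S (c.f b x) : ℝ) - rho c.S x + 1 + (if c.f b x < x then (c.S.card : ℝ) else 0) := by
  have hy := hg.mem b x hx
  have hne := hg.ne b x hx
  set y := c.f b x with hyd
  rcases lt_or_gt_of_ne hne with h1 | h1
  · -- `y < x`
    rw [if_pos h1]
    have e1 : c.S.filter (fun z => In (c.f b) x z) =
        (c.S.filter (fun z => ¬ z < x)) ∪ (insert y (c.S.filter (· < y))) := by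
      ext z
      simp only [Finset.mem_filter, Finset.mem_union, Finset.mem_insert, In, Cyc, ← hyd, not_lt]
      constructor
      · rintro ⟨h2, h3 | h3 | h3 | h3 | h3⟩
        · exact Or.inl ⟨h2, h3.ge⟩
        · exact Or.inr (Or.inl h3)
        · exact absurd (h3.1.trans (h3.2.trans h1)) (lt_irrefl _)
        · exact Or.inr (Or.inr ⟨h2, h3.1⟩)
        · exact Or.inl ⟨h2, h3.2.le⟩
      · rintro (⟨h2, h3⟩ | rfl | ⟨h2, h3⟩)
        · refine ⟨h2, ?_⟩
          rcases h3.lt_or_eq with h4 | h4
          · exact Or.inr (Or.inr (Or.inr (Or.inr ⟨h1, h4⟩)))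
          · exact Or.inl h4.symm
        · exact ⟨hy, Or.inr (Or.inl rfl)⟩
        · exact ⟨h2, Or.inr (Or.inr (Or.inr (Or.inl ⟨h3, h1⟩)))⟩
    have hd : Disjoint (c.S.filter (fun z => ¬ z < x)) (insert y (c.S.filter (· < y))) := by
      rw [Finset.disjoint_left]
      intro z hz hz'
      simp only [Finset.mem_filter, Finset.mem_insert, not_lt] at hz hz'
      rcases hz' with rfl | ⟨_, h3⟩
      · exact absurd h1 (not_lt.2 hz.2)
      · exact absurd (h3.trans h1) (not_lt.2 hz.2)
    have e2 := Finset.card_filter_add_card_filter_not (s := c.S) (fun z => z < x)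
    rw [e1, Finset.card_union_of_disjoint hd, Finset.card_insert_of_notMem (by simp)]
    unfold rho
    have e3 : ((c.S.filter (fun z => ¬ z < x)).card : ℝ) =
        c.S.card - (c.S.filter (· < x)).card := by
      have : ((c.S.filter (· < x)).card : ℝ) + ((c.S.filter (fun z => ¬ z < x)).card : ℝ) =
        c.S.card := by exact_mod_cast e2
      linarith
    push_cast
    rw [e3]
    ring
  · -- `x < y`
    rw [if_neg (not_lt.2 h1.le)]
    have e1 : c.S.filter (fun z => In (c.f b) x z) =
        insert x (insert y (c.S.filter (fun z => x < z ∧ z < y))) := by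
      ext z
      simp only [Finset.mem_filter, Finset.mem_insert, In, Cyc, ← hyd]
      constructor
      · rintro ⟨h2, h3 | h3 | h3 | h3 | h3⟩
        · exact Or.inl h3
        · exact Or.inr (Or.inl h3)
        · exact Or.inr (Or.inr ⟨h2, h3⟩)
        · exact absurd (h3.2.trans h1) (lt_irrefl _)
        · exact absurd (h3.1.trans h1) (lt_irrefl _)
      · rintro (rfl | rfl | ⟨h2, h3⟩)
        · exact ⟨hx, Or.inl rfl⟩
        · exact ⟨hy, Or.inr (Or.inl rfl)⟩
        · exact ⟨h2, Or.inr (Or.inr (Or.inl h3))⟩
    have e2 := rho_eq hx h1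
    rw [e1, Finset.card_insert_of_notMem, Finset.card_insert_of_notMem (by simp), e2]
    · push_cast; ring
    · simp only [Finset.mem_insert, Finset.mem_filter, not_or, not_and]
      exact ⟨h1.ne, fun _ h3 => absurd h3 (lt_irrefl _)⟩

/-- the alternating sum of the ranks -/
theorem sum_eps_rho : ∀ (n : ℕ) (S : Finset W), S.card = 2 * n →
    ∑ z ∈ S, eps S z * (rho S z : ℝ) = -(n : ℝ) := by
  classical
  intro n
  induction n with
  | zero =>
    intro S hS
    have h0 : S = ∅ := Finset.card_eq_zero.1 (by omega)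
    rw [h0]; simp
  | succ n ih =>
    intro S hS
    have hne : S.Nonempty := Finset.card_pos.1 (by omega)
    set a := S.max' hne with ha
    have haS : a ∈ S := S.max'_mem hne
    have hc1 := Finset.card_erase_of_mem haS
    have hne2 : (S.erase a).Nonempty := Finset.card_pos.1 (by omega)
    set b := (S.erase a).max' hne2 with hb
    have hbS' : b ∈ S.erase a := (S.erase a).max'_mem hne2
    have hbS : b ∈ S := (Finset.mem_erase.1 hbS').2
    have hba : b ≠ a := (Finset.mem_erase.1 hbS').1
    have hlt : b < a := lt_of_le_of_ne (S.le_max' b hbS) hba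
    have hc2 := Finset.card_erase_of_mem hbS'
    have hrest : ∀ z ∈ (S.erase a).erase b, z < b := by
      intro z hz
      have h1 := Finset.mem_erase.1 hz
      exact lt_of_le_of_ne ((S.erase a).le_max' z h1.2) h1.1
    have hra : rho S a = 2 * n + 1 := by
      unfold rho
      have : S.filter (· < a) = S.erase a := by
        ext z
        simp only [Finset.mem_filter, Finset.mem_erase]
        constructor
        · rintro ⟨h1, h2⟩; exact ⟨h2.ne, h1⟩
        · rintro ⟨h1, h2⟩; exact ⟨h2, lt_of_le_of_ne (S.le_max' z h2) h1⟩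
      rw [this]; omega
    have hrb : rho S b = 2 * n := by
      unfold rho
      have : S.filter (· < b) = (S.erase a).erase b := by
        ext z
        simp only [Finset.mem_filter]
        constructor
        · rintro ⟨h1, h2⟩
          exact Finset.mem_erase.2 ⟨h2.ne, Finset.mem_erase.2 ⟨(h2.trans hlt).ne, h1⟩⟩
        · intro h1
          exact ⟨(Finset.mem_erase.1 (Finset.mem_erase.1 h1).2).2, hrest z h1⟩
      rw [this]; omega
    have hro : ∀ z ∈ (S.erase a).erase b, rho ((S.erase a).erase b) z = rho S z := by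
      intro z hz
      unfold rho
      congr 1
      ext w
      simp only [Finset.mem_filter, Finset.mem_erase]
      constructor
      · rintro ⟨⟨_, _, h1⟩, h2⟩; exact ⟨h1, h2⟩
      · rintro ⟨h1, h2⟩
        have h3 := hrest z hz
        exact ⟨⟨(h2.trans h3).ne, (h2.trans (h3.trans hlt)).ne, h1⟩, h2⟩
    have h1 := ih ((S.erase a).erase b) (by omega)
    rw [← Finset.sum_erase_add _ _ haS, ← Finset.sum_erase_add _ _ hbS']
    have h2 : ∑ z ∈ (S.erase a).erase b, eps S z * (rho S z : ℝ) = -(n : ℝ) := by
      rw [← h1]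
      apply Finset.sum_congr rfl
      intro z hz
      unfold eps
      rw [hro z hz]
    rw [h2]
    unfold eps
    rw [hra, hrb, pow_add, pow_mul]
    push_cast
    norm_num
    ring

open Classical in
/-- **A strictly valid potential exists on every configuration.** -/
theorem exists_strict {c : Cfg W} (hg : c.Good) : ∃ (E : W → ℝ) (M η : ℝ), 0 < η ∧
    ∀ b, ∀ T ⊆ c.S, T.Nonempty → PD (c.f b) T →
      ∑ x ∈ T, (M + c.dl E b x) ≤ 2 * M - η := by
  obtain ⟨m, hm⟩ : ∃ m, c.S.card = 2 * m := by
    have h0 : ∑ z ∈ c.S, (1 : ZMod 2) = 0 := by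
      refine Finset.sum_involution (fun z _ => c.f true z) ?_ ?_ ?_ ?_
      · intro z _; decide
      · intro z hz _
        exact hg.ne true z hz
      · intro z hz
        exact hg.mem true z hz
      · intro z hz
        exact hg.inv true z hz
    rw [Finset.sum_const, nsmul_eq_mul, mul_one] at h0
    obtain ⟨k, hk⟩ := (ZMod.natCast_eq_zero_iff_even).1 h0
    exact ⟨k, by omega⟩
  obtain ⟨E, hE⟩ := exists_pot _ c rfl hg (fun _ z => (rho c.S z : ℝ) / 2) ((m : ℝ) / 2) (by
    have := sum_eps_rho m c.S hm
    calc ∑ z ∈ c.S, eps c.S z * ((rho c.S z : ℝ) / 2 + (rho c.S z : ℝ) / 2)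
        = ∑ z ∈ c.S, eps c.S z * (rho c.S z : ℝ) :=
          Finset.sum_congr rfl fun z _ => by ring
      _ = _ := by rw [this]; ring)
  refine ⟨E, (m : ℝ) / 2, 1 / 2, by norm_num, ?_⟩
  intro b T hT hne hPD
  have e1 : ∀ x ∈ T, (m : ℝ) / 2 + c.dl E b x =
      (((c.S.filter (fun z => In (c.f b) x z)).card : ℝ) - 1) / 2 := by
    intro x hx
    rw [card_in hg b (hT hx), hE b x (hT hx), hm]
    unfold mm
    split_ifs
    · push_cast; ring
    · ring
  rw [Finset.sum_congr rfl e1]
  have e2 : ∑ x ∈ T, (c.S.filter (fun z => In (c.f b) x z)).card ≤ 2 * m := by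
    rw [← hm, ← Finset.card_biUnion]
    · apply Finset.card_le_card
      intro z hz
      rw [Finset.mem_biUnion] at hz
      obtain ⟨x, _, hx⟩ := hz
      exact (Finset.mem_filter.1 hx).1
    · intro x hx y hy hxy
      rw [Function.onFun, Finset.disjoint_left]
      intro z hz hz'
      have h1 := (Finset.mem_filter.1 hz).2
      have h2 := (Finset.mem_filter.1 hz').2
      have h3 := hPD x hx y hy hxy
      rcases in_or hxy h1 h2 with h4 | h4
      · exact h3.1 h4
      · exact h3.2 h4
  have e3 : (∑ x ∈ T, ((c.S.filter (fun z => In (c.f b) x z)).card : ℝ)) ≤ 2 * m := by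
    exact_mod_cast e2
  have e4 : (1 : ℝ) ≤ T.card := by
    exact_mod_cast Finset.card_pos.2 hne
  rw [← Finset.sum_div, Finset.sum_sub_distrib, Finset.sum_const, nsmul_eq_mul, mul_one]
  linarith

theorem exists_robust {c : Cfg W} (hg : c.Good) : ∃ (E : W → ℝ) (M : ℝ), 0 < M ∧ Strict c E M := by
  obtain ⟨E, M, η, h0, h1⟩ := exists_strict hg
  have hs : Strict c E M := fun b T hT hne hPD => by
    have := h1 b T hT hne hPD
    linarith
  exact ⟨E, M, hs.pos hg, hs⟩

/-! ### Robust potentials -/

/-- valid with the slack `η` -/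
def Slack (c : Cfg W) (E : W → ℝ) (M η : ℝ) : Prop :=
  ∀ b, ∀ T ⊆ c.S, T.Nonempty → PD (c.f b) T → ∑ x ∈ T, (M + c.dl E b x) ≤ 2 * M - η

/-- every potential near `E` is valid -/
def Rob (c : Cfg W) (E : W → ℝ) : Prop :=
  ∃ ε : ℝ, 0 < ε ∧ ∀ E' : W → ℝ, (∀ x ∈ c.S, |E' x - E x| ≤ ε) → ∃ M, c.Valid E' M

theorem Slack.strict {c : Cfg W} {E : W → ℝ} {M η : ℝ} (h : Slack c E M η) (hη : 0 < η) :
    Strict c E M := fun b T hT hne hPD => by
  have := h b T hT hne hPD
  linarith

/-- mixtures of a valid potential and of a potential with slack have slack -/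
theorem Slack.mix {c : Cfg W} {E₀ E₁ : W → ℝ} {M₀ M₁ η t : ℝ} (h0 : c.Valid E₀ M₀)
    (h1 : Slack c E₁ M₁ η) (ht0 : 0 ≤ t) (ht1 : t ≤ 1) :
    Slack c (fun x => (1 - t) * E₀ x + t * E₁ x) ((1 - t) * M₀ + t * M₁) (t * η) := by
  intro b T hT hne hPD
  have e0 := h0 b T hT hPD
  have e1 := h1 b T hT hne hPD
  have e2 : ∑ x ∈ T, ((1 - t) * M₀ + t * M₁ + c.dl (fun x => (1 - t) * E₀ x + t * E₁ x) b x) =
      (1 - t) * ∑ x ∈ T, (M₀ + c.dl E₀ b x) + t * ∑ x ∈ T, (M₁ + c.dl E₁ b x) := by
    rw [Finset.mul_sum, Finset.mul_sum, ← Finset.sum_add_distrib]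
    apply Finset.sum_congr rfl
    intro x _
    unfold Cfg.dl
    ring
  rw [e2]
  have e3 := mul_le_mul_of_nonneg_left e0 (sub_nonneg.2 ht1)
  have e4 := mul_le_mul_of_nonneg_left e1 ht0
  linarith

/-- small changes of a potential with slack keep (half of) the slack -/
theorem Slack.near {c : Cfg W} (hg : c.Good) {E E' : W → ℝ} {M η : ℝ} (h : Slack c E M η)
    (hη : 0 ≤ η) (hE : ∀ x ∈ c.S, |E' x - E x| ≤ η / (4 * (c.S.card + 1))) :
    Slack c E' M (η / 2) := by
  intro b T hT hne hPD
  have e0 := h b T hT hne hPD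
  have hn : (0 : ℝ) < 4 * (c.S.card + 1) := by positivity
  have e1 : ∀ x ∈ T, M + c.dl E' b x ≤ (M + c.dl E b x) + 2 * (η / (4 * (c.S.card + 1))) := by
    intro x hx
    have h1 := abs_le.1 (hE x (hT hx))
    have h2 := abs_le.1 (hE _ (hg.mem b x (hT hx)))
    unfold Cfg.dl
    rcases sg_sq b with h3
    have h4 : sg b = 1 ∨ sg b = -1 := by cases b <;> simp [sg]
    rcases h4 with h4 | h4 <;> rw [h4] <;> linarith [h1.1, h1.2, h2.1, h2.2]
  refine le_trans (Finset.sum_le_sum e1) ?_
  rw [Finset.sum_add_distrib, Finset.sum_const, nsmul_eq_mul]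
  have hc : (T.card : ℝ) ≤ c.S.card := by exact_mod_cast Finset.card_le_card hT
  have e2 : (T.card : ℝ) * (2 * (η / (4 * (c.S.card + 1)))) ≤ η / 2 := by
    have e3 : 0 ≤ 2 * (η / (4 * ((c.S.card : ℝ) + 1))) := by positivity
    calc (T.card : ℝ) * (2 * (η / (4 * (c.S.card + 1))))
        ≤ ((c.S.card : ℝ) + 1) * (2 * (η / (4 * (c.S.card + 1)))) :=
          mul_le_mul_of_nonneg_right (by linarith) e3
      _ = η / 2 := by field_simp; ring
  linarith

theorem Slack.rob {c : Cfg W} (hg : c.Good) {E : W → ℝ} {M η : ℝ} (h : Slack c E M η)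
    (hη : 0 < η) : Rob c E := by
  refine ⟨η / (4 * (c.S.card + 1)), by positivity, fun E' hE' => ⟨M, ?_⟩⟩
  exact ((h.near hg hη.le hE').strict (by positivity)).valid hg

/-- there is `E₁` such that all proper mixtures with a valid potential are robust -/
theorem exists_rob {c : Cfg W} (hg : c.Good) : ∃ E₁ : W → ℝ, ∀ (E₀ : W → ℝ) (M₀ : ℝ),
    c.Valid E₀ M₀ → ∀ t : ℝ, 0 < t → t ≤ 1 → Rob c (fun x => (1 - t) * E₀ x + t * E₁ x) := by
  obtain ⟨E₁, M₁, η, hη, h1⟩ := exists_strict hg
  refine ⟨E₁, fun E₀ M₀ h0 t ht0 ht1 => ?_⟩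
  have h1' : Slack c E₁ M₁ η := h1
  exact (h1'.mix h0 ht0.le ht1).rob hg (by positivity)

/-- robustness is inherited under the deletion of a leaf of smallest mass -/
theorem Rob.valid {c : Cfg W} {E : W → ℝ} (h : Rob c E) : ∃ M, c.Valid E M := by
  obtain ⟨ε, h0, h1⟩ := h
  exact h1 E (fun x _ => by simpa using h0.le)

end Vale.Agent.P040.H587
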