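import Vale.Agent.P040.H688.Ind
import Vale.Agent.P040.H587.Robust

/-!
# A minimal chord of a robust state is a leaf
-/

set_option linter.unusedVariables false
set_option linter.unusedSectionVars false

namespace Vale.Agent.P040.H587

open Vale.Agent.P040.H906 P040H251

variable {W : Type*} [LinearOrder W]

theorem rob_iff {c : Cfg W} {E : W → ℝ} : Rob c E ↔ H688.Rob c E := Iff.rfl

/-- two disjoint arcs inside each other: the inner chord has a smaller increment than the outer
one, strictly so for a robust function -/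
theorem rob_inner_lt {c : Cfg W} {E : W → ℝ} (hg : c.Good) (hr : H688.Rob c E) {b : Bool} {x y : W}
    (hx : x ∈ c.S) (hy : y ∈ c.S) (h1 : Cyc x y (c.f b x)) (h2 : Cyc x y (c.f b y)) :
    c.dl E b y < c.dl E b x := by
  classical
  obtain ⟨ε, hε, h⟩ := hr
  have hq := hg.mem b x hx
  have hw := hg.mem b y hy
  have hiq := hg.inv b x hx
  have hn := hg.ne b x hx
  have hny := hg.ne b y hy
  have h3 := hg.nc b x hx y hy h1
  have hyx : y ≠ x := by rintro rfl; exact not_cyc_left h1
  have hyq : y ≠ c.f b x := by intro he; rw [he] at h1; exact not_cyc_right h1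
  have hwx : c.f b y ≠ x := by intro he; rw [he] at h3; exact not_cyc_left h3
  have hwq : c.f b y ≠ c.f b x := by intro he; exact hyx (hg.inj hy hx he)
  set F' : W → ℝ := fun u => if u = y then E y - sg b * ε else E u with hF'
  have k1 : F' y = E y - sg b * ε := by simp [hF']
  have k2 : ∀ u, u ≠ y → F' u = E u := by intro u hu; simp [hF', hu]
  have hs : |sg b| = 1 := by cases b <;> simp [sg]
  obtain ⟨M, hM⟩ := h F' (by
    intro u hu
    by_cases huy : u = y
    · rw [huy, k1, show E y - sg b * ε - E y = -(sg b * ε) by ring, abs_neg, abs_mul, hs, one_mul,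
        abs_of_pos hε]
    · rw [k2 u huy]; simpa using hε.le)
  have hPD : PD (c.f b) {c.f b x, y} := by
    intro u hu v hv huv
    simp only [Finset.mem_insert, Finset.mem_singleton] at hu hv
    have key : Dis (c.f b) (c.f b x) y := by
      constructor
      · rintro (h4 | h4 | h4)
        · exact hyq h4
        · rw [hiq] at h4; exact hyx h4
        · rw [hiq] at h4
          unfold Cyc at h4 h1
          grind
      · rintro (h4 | h4 | h4)
        · exact hyq h4.symm
        · exact hwq h4.symm
        · unfold Cyc at h4 h1 h2 h3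
          grind
    rcases hu with rfl | rfl <;> rcases hv with rfl | rfl
    · exact absurd rfl huv
    · exact key
    · exact key.symm
    · exact absurd rfl huv
  have h4 := hM b {c.f b x, y} (by
    intro u hu
    simp only [Finset.mem_insert, Finset.mem_singleton] at hu
    rcases hu with rfl | rfl
    · exact hq
    · exact hy) hPD
  rw [Finset.sum_pair hyq.symm, Cfg.dl_inv hg hx] at h4
  have e1 : c.dl F' b x = c.dl E b x := by
    unfold Cfg.dl
    rw [k2 _ hyq.symm, k2 _ hyx.symm]
  have e2 : c.dl F' b y = c.dl E b y + ε := by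
    unfold Cfg.dl
    rw [k1, k2 _ hny]
    have := sg_sq b
    have e : sg b * (E (c.f b y) - (E y - sg b * ε)) =
      sg b * (E (c.f b y) - E y) + (sg b * sg b) * ε := by ring
    rw [e, this, one_mul]
  rw [e1, e2] at h4
  linarith

/-- **a minimal chord of a robust state is a leaf** -/
theorem rob_min_leaf {c : Cfg W} {E : W → ℝ} (hg : c.Good) (hr : H688.Rob c E) {b : Bool} {x : W}
    (hx : x ∈ c.S) (hmin : ∀ b', ∀ y ∈ c.S, c.dl E b x ≤ c.dl E b' y) : c.Leaf b x := by
  refine ⟨hx, fun z hz hcyc => ?_⟩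
  have hw := hg.mem b z hz
  have hiz := hg.inv b z hz
  have hnz := hg.ne b z hz
  have h3 := hg.nc b x hx z hz hcyc
  have h4 : Cyc x z (c.f b z) ∨ Cyc x (c.f b z) z := by
    have hzx : z ≠ x := by rintro rfl; exact not_cyc_left hcyc
    have hwx : c.f b z ≠ x := by intro he; rw [he] at h3; exact not_cyc_left h3
    unfold Cyc at *
    grind
  rcases h4 with h4 | h4
  · exact absurd (hmin b z hz) (not_le.2 (rob_inner_lt hg hr hx hz hcyc h4))
  · exact absurd (hmin b _ hw) (not_le.2 (rob_inner_lt hg hr hx hw h3 (by rw [hiz]; exact h4)))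

/-- the level of a robust state may be lowered to the smallest increment -/
theorem rob_valid_min {c : Cfg W} {E : W → ℝ} (hg : c.Good) (hr : H688.Rob c E) {b : Bool} {x : W}
    (hx : x ∈ c.S) (hmin : ∀ b', ∀ y ∈ c.S, c.dl E b x ≤ c.dl E b' y) :
    c.Valid E (-(c.dl E b x)) := by
  obtain ⟨M, hM⟩ := hr.valid
  exact H688.valid_min hg hM hx hmin

/-- robustness passes to the deletion of a minimal chord -/
theorem rob_del_min {c : Cfg W} {E : W → ℝ} (hg : c.Good) (hr : H688.Rob c E)
    (hc : 2 < c.S.card) {b : Bool} {x : W} (hx : x ∈ c.S)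
    (hmin : ∀ b', ∀ y ∈ c.S, c.dl E b x ≤ c.dl E b' y) : H688.Rob (c.del b x) E :=
  H688.rob_del hg hc (rob_min_leaf hg hr hx hmin) (rob_valid_min hg hr hx hmin) hr

/-- there is a minimal chord; in a robust state it is a leaf -/
theorem rob_exists_min {c : Cfg W} {E : W → ℝ} (hg : c.Good) (hr : H688.Rob c E) :
    ∃ b x, x ∈ c.S ∧ (∀ b', ∀ y ∈ c.S, c.dl E b x ≤ c.dl E b' y) ∧ c.Leaf b x ∧
      c.Valid E (-(c.dl E b x)) := by
  classical
  obtain ⟨p, hp, hmin⟩ := Finset.exists_min_image ((Finset.univ : Finset Bool) ×ˢ c.S)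
    (fun p => c.dl E p.1 p.2) (by
      obtain ⟨x, hx⟩ := hg.nonem
      exact ⟨(true, x), by simp [hx]⟩)
  rw [Finset.mem_product] at hp
  have hmin' : ∀ b', ∀ y ∈ c.S, c.dl E p.1 p.2 ≤ c.dl E b' y := fun b' y hy =>
    hmin (b', y) (by simp [hy])
  exact ⟨p.1, p.2, hp.2, hmin', rob_min_leaf hg hr hp.2 hmin', rob_valid_min hg hr hp.2 hmin'⟩

end Vale.Agent.P040.H587
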